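import Vale.Agent.P011UGA.IF2
import Vale.Agent.P011UC.Defs
import Vale.Agent.P011ND.Crv

/-!
The normal subgroup theorem for anisotropic forms: definitions and interfaces.
-/

set_option autoImplicit false
set_option linter.all false

namespace Vale.Agent.P011UT4

open Matrix Polynomial Vale.Agent.P011L Vale.Agent.P183CH Vale.Agent.P183CH.Chev
  Vale.Agent.P011U Vale.Agent.P011UGA

/-! ### Structure constants -/

section

variable {n R : Type} [Fintype n] [DecidableEq n] [CommRing R]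

/-- The matrix of the left multiplication by `y`. -/
def adm (M : n → Matrix n n R) (y : n → R) : Matrix n n R := of fun a b => ∑ c, y c * M a c b

/-- The Killing form and the bracket. -/
def dt (M : n → Matrix n n R) : P011ND.Dt n Empty R :=
  ⟨Empty.elim, of fun i j => (adm M (Pi.single i 1) * adm M (Pi.single j 1)).trace, M⟩

/-- The rational curve `P / d` in the group. -/
def Crv {k Γ : Type} [Field k] [Group Γ] (r : Γ →* Matrix n n k) (d : k[X])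
    (P : Matrix n n k[X]) : Prop :=
  d.eval 0 = 1 ∧ P.map (eval 0) = 1 ∧
    ∀ q, d.eval q ≠ 0 → ∃ γ, d.eval q • r γ = P.map (eval q)

end

/-- Simple Lie algebras: Killing form, derivations, Jacobson-Morozov. -/
def KIL : Prop := ∀ (k n : Type) [Field k] [CharZero k] [Fintype n] [DecidableEq n]
  (M : n → Matrix n n k), (∀ x, adm M x *ᵥ x = 0) →
  (∀ x y, adm M (adm M x *ᵥ y) = adm M x * adm M y - adm M y * adm M x) → (∃ x, adm M x ≠ 0) →
  (∀ U : Submodule k (n → k), (∀ x, ∀ y ∈ U, adm M x *ᵥ y ∈ U) → U = ⊥ ∨ U = ⊤) →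
    (dt M).B.det ≠ 0 ∧ (∀ X, (dt M).Lie X → ∃ y, X = adm M y) ∧
    ∀ x, x ≠ 0 → IsNilpotent (adm M x) → ∃ h f, adm M h *ᵥ x = (2 : k) • x ∧
      adm M h *ᵥ f = -((2 : k) • f) ∧ adm M x *ᵥ f = h

/-- The cocharacter of an `sl₂`-triple. -/
def SL2 : Prop := ∀ (K n : Type) [Field K] [CharZero K] [IsAlgClosed K] [Fintype n] [DecidableEq n]
  (H X Y : Matrix n n K), X ≠ 0 → H * X - X * H = (2 : K) • X → H * Y - Y * H = -((2 : K) • Y) →
  X * Y - Y * X = H → IsNilpotent X ∧ IsNilpotent Y ∧ ∃ (g : GL n K) (y : n → ℤ), y ≠ 0 ∧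
    ∀ s : Kˣ, IsNilpotent.exp (((s ^ 2 : Kˣ) : K) • X) *
      IsNilpotent.exp (-(((s ^ 2)⁻¹ : Kˣ) : K) • Y) * IsNilpotent.exp (((s ^ 2 : Kˣ) : K) • X) *
        (IsNilpotent.exp (-X) * IsNilpotent.exp Y * IsNilpotent.exp (-X)) * g.1 =
      g.1 * diagonal fun i => (s ^ y i).1

/-- A split place and a unit. -/
def ARI : Prop := ∀ (k F : Type) [Field k] [NumberField k] [Field F] [Algebra k F]
  [FiniteDimensional k F] [IsGalois k F],
  ∃ (ι : Type) (_ : Fintype ι) (E : ι → Type) (_ : ∀ i, NontriviallyNormedField (E i))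
    (_ : ∀ i, ProperSpace (E i)) (_ : ∀ i, Algebra k (E i)) (O : Subring k) (v : ι)
    (φ : F →ₐ[k] E v) (z : F), P011ND.Pls E O ∧ z ≠ 0 ∧ ‖φ z‖ < 1 ∧
      (∀ σ : F ≃ₐ[k] F, σ ≠ 1 → ‖φ (σ z)‖ = 1) ∧ IsIntegral O z ∧ IsIntegral O z⁻¹ ∧
      ∀ i, i ≠ v → (∀ e, IsPreconnected (Metric.closedBall (0 : E i) e)) ∧ ∀ d : k[X],
        d.map (algebraMap k F) = ∏ σ : F ≃ₐ[k] F, (1 + C (σ (z - 1)) * X) →
          ∃ I : Set (E i), IsPreconnected I ∧ 0 ∈ I ∧ 1 ∈ I ∧ ∀ t ∈ I, aeval t d ≠ 0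

/-- Cocompactness. -/
def COC : Prop := ∀ (k ι n : Type) [Field k] [CharZero k] [Fintype ι] [Fintype n] [DecidableEq n]
  (E : ι → Type) [∀ i, NontriviallyNormedField (E i)] [∀ i, ProperSpace (E i)]
  [∀ i, Algebra k (E i)] (O : Subring k) (M : n → Matrix n n k), P011ND.Pls E O →
  (dt M).B.det ≠ 0 → (∀ y, IsNilpotent (adm M y) → y = 0) →
  ∀ (Γ : Type) [Group Γ] (r : Γ →* Matrix n n k), (∀ g, (dt M).Stab g → ∃ γ, r γ = g) →
    ∃ C : Set (P011ND.GG E n), IsCompact C ∧ ∀ g ∈ P011ND.St E (dt M),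
      ∃ d ∈ P011ND.DO r O, (P011ND.pp E r d)⁻¹ * g ∈ C

/-! ### The Lie algebra -/

/-- The Lie algebra. -/
noncomputable abbrev gg (D : Chev) (K : Type) [Field K] : Submodule K (D.Mat K) :=
  P011UC.lie D K Set.univ

/-- Simplicity of the Lie algebra. -/
def IRR : Prop := ∀ (D : Chev) (K : Type) [Field K], Nonempty (K →+* ℂ) →
  (∀ X ∈ gg D K, ∀ Y ∈ gg D K, X * Y - Y * X ∈ gg D K) ∧ ∀ W ≤ gg D K,
    ((∀ X ∈ gg D K, ∀ Y ∈ W, X * Y - Y * X ∈ W) ∨ ∀ g : D.grp K, ∀ Y ∈ W, Ad g.1 Y ∈ W) →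
      W = ⊥ ∨ W = gg D K

/-- The exponential of a nilpotent element. -/
def EXP : Prop := ∀ D : Chev, SC D → ∀ (K : Type) [Field K] [CharZero K], ∀ X ∈ gg D K,
  IsNilpotent X → ∃ g : D.grp K, g.1.1 = IsNilpotent.exp X

/-- The kernel of the adjoint representation. -/
def CEN : Prop := ∀ D : Chev, ∃ e : ℕ, 0 < e ∧ ∀ (K : Type) [Field K] [CharZero K] (z : D.grp K),
  (∀ X ∈ gg D K, Ad z.1 X = X) → (∀ g, z * g = g * z) ∧ z ^ e = 1

section

variable {D : Chev} {E : Type} [Field E] {m : ℕ}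

/-- `b` is a basis of the Lie algebra. -/
def Bs (b : Fin m → D.Mat E) : Prop :=
  LinearIndependent E b ∧ Submodule.span E (Set.range b) = gg D E

/-- `ρ` is the adjoint representation in the basis `b`. -/
def Rp (b : Fin m → D.Mat E) (ρ : D.grp E →* Matrix (Fin m) (Fin m) E) : Prop :=
  ∀ g j, Ad g.1 (b j) = ∑ i, ρ g i j • b i

/-- `M` is the family of the structure constants. -/
def Sc {k : Type} [Field k] (f : k →+* E) (b : Fin m → D.Mat E)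
    (M : Fin m → Matrix (Fin m) (Fin m) k) : Prop :=
  ∀ i j, b i * b j - b j * b i = ∑ l, f (M l i j) • b l

/-- Change of the field. -/
def bm {E' : Type} (f : E → E') (b : Fin m → D.Mat E) : Fin m → D.Mat E' := fun j => (b j).map f

end

section

variable {k K : Type} [Field k] [Field K] [Algebra k K] {D : Chev} (T : Tw k (D.grp K))
  (F : IntermediateField k K) {m : ℕ}

/-- The form of the Lie algebra. -/
structure Kf (b : Fin m → D.Mat F) (M : Fin m → Matrix (Fin m) (Fin m) k)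
    (ρ : D.grp K →* Matrix (Fin m) (Fin m) K) (r : T.fix →* Matrix (Fin m) (Fin m) k) : Prop where
  bs : Bs b
  sc : Sc (algebraMap k F) b M
  rp : Rp (bm (algebraMap F K) b) ρ
  eqv : ∀ σ g, ρ (T.a σ g) = (ρ g).map σ
  rr : ∀ γ, (r γ).map (algebraMap k K) = ρ γ.1

/-- The norm of a coroot element. -/
noncomputable def nrm {k F : Type} [Field k] [Field F] [Algebra k F] [FiniteDimensional k F]
    {r : ℕ} (ε : (F ≃ₐ[k] F) →* ℤˣ) (π : (F ≃ₐ[k] F) →* Equiv.Perm (Fin r)) (j : Fin r) (w : Fˣ) :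
    Fin r → Fˣ :=
  ∏ σ : F ≃ₐ[k] F, Pi.mulSingle (π σ j) (Units.map (σ : F →* F) w ^ (ε σ : ℤ))

variable {T F}

/-- `γ` is the norm of `h j w`. -/
def Nr [FiniteDimensional k F] (ε : (F ≃ₐ[k] F) →* ℤˣ)
    (π : (F ≃ₐ[k] F) →* Equiv.Perm (Fin D.R.r)) (j : Fin D.R.r) (w : Fˣ) (γ : T.fix) : Prop :=
  γ.1 = fm D (algebraMap F K) (hT D F (nrm ε π j w))

end

/-- Existence of the form of the Lie algebra. -/
def KFX : Prop := ∀ (k K : Type) [Field k] [NumberField k] [Field K] [Algebra k K]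
  [IsSepClosure k K] (D : Chev), SC D → ∀ (T : Tw k (D.grp K)) ε π d, Opw T ε π d →
  ∀ F : IntermediateField k K, (∀ τ : K ≃ₐ[k] K, (∀ x ∈ F, τ x = x) → ε τ = 1 ∧ π τ = 1) →
    ∃ (m : ℕ) (b : Fin m → D.Mat F) (M : _) (ρ : _) (r : _), Kf T F b M ρ r

/-- Quantifier over the forms of the Lie algebra. -/
def AllK (P : ∀ (k K : Type) [Field k] [Field K] [Algebra k K] (D : Chev) (T : Tw k (D.grp K))
    (F : IntermediateField k K) (m : ℕ), (Fin m → D.Mat F) → (Fin m → Matrix (Fin m) (Fin m) k) →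
      (T.fix →* Matrix (Fin m) (Fin m) k) → Prop) : Prop :=
  ∀ (k K : Type) [Field k] [NumberField k] [Field K] [Algebra k K] [IsSepClosure k K] (D : Chev),
    SC D → ∀ T F m b M ρ r, Kf T F b M ρ r → P k K D T F m b M r

/-- The hypotheses of `KIL`. -/
def SIM : Prop := AllK fun k _ _ _ _ _ _ _ m _ M _ => (∀ x, adm M x *ᵥ x = 0) ∧
  (∀ x y, adm M (adm M x *ᵥ y) = adm M x * adm M y - adm M y * adm M x) ∧ (∃ x, adm M x ≠ 0) ∧
  ∀ U : Submodule k (Fin m → k), (∀ x, ∀ y ∈ U, adm M x *ᵥ y ∈ U) → U = ⊥ ∨ U = ⊤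

/-- Anisotropic forms have no nilpotent elements. -/
def NIL : Prop := AllK fun _ _ _ _ _ _ T _ _ _ M _ => T.Ani →
  ∀ y, IsNilpotent (adm M y) → y = 0

/-- Burnside. -/
def SPN : Prop := AllK fun k _ _ _ _ _ T _ _ _ _ r => ∀ N : Subgroup T.fix, N.Normal →
  (∃ n ∈ N, r n ≠ 1) → Submodule.span k (r '' N) = ⊤

/-- The isogeny to the adjoint group. -/
def ISG : Prop := AllK fun k _ _ _ _ D _ F m b _ r => ∀ (E : Type) [Field E] [Algebra k E]
  (φ : F →ₐ[k] E) (ρ' : D.grp E →* Matrix (Fin m) (Fin m) E), Rp (bm φ b) ρ' →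
    ∀ Λ : Subgroup (Matrix (Fin m) (Fin m) k)ˣ, Λ.FG →
      (∀ δ ∈ Λ, ∃ g, ρ' g = δ.1.map (algebraMap k E)) → r.toHomUnits.range.relIndex Λ ≠ 0

/-- Rational curves in the torus. -/
def CRV : Prop := AllK fun k _ _ _ _ D T F _ _ _ r => ∀ [CharZero k] [FiniteDimensional k F]
  [IsGalois k F] (ε : _) (π : _) (j : Fin D.R.r), (∀ w, ∃ γ : T.fix, Nr ε π j w γ) →
    (∀ x : F, ∃ (d : k[X]) (N : ℕ) (P : _),
      d.map (algebraMap k F) = ∏ σ : F ≃ₐ[k] F, (1 + C (σ x) * X) ∧ Crv r (d ^ N) P ∧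
        ∀ (q : k) (w : Fˣ) γ, (w : F) = 1 + algebraMap k F q * x → Nr ε π j w γ →
          (d ^ N).eval q • r γ = P.map (eval q)) ∧
    ∃ d P, Crv r d P ∧ P.map (coeff · 1) ≠ d.coeff 1 • 1

/-- Integrality. -/
def INT : Prop := AllK fun k _ _ _ _ D T F _ _ _ r => ∀ [FiniteDimensional k F] (ε : _) (π : _)
  (j : Fin D.R.r) (O : Subring k) (w : Fˣ) (γ : T.fix), IsIntegral O (w : F) →
    IsIntegral O ((w⁻¹ : Fˣ) : F) → Nr ε π j w γ → IsIntegral O (r γ) ∧ IsIntegral O (r γ⁻¹)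

/-! ### Analysis -/

/-- The hypotheses of the normal subgroup theorem. -/
structure An {k ι n Γ : Type} [Field k] [Fintype ι] [Fintype n] [DecidableEq n] [Group Γ]
    (E : ι → Type) [∀ i, NontriviallyNormedField (E i)] [∀ i, ProperSpace (E i)]
    [∀ i, Algebra k (E i)] (O : Subring k) (v : ι) (M : n → Matrix n n k) (r : Γ →* Matrix n n k)
    (H : Subgroup (Matrix n n (E v))ˣ) (x0 : Γ) : Prop where
  pls : P011ND.Pls E O
  stab : ∀ γ, (dt M).Stab (r γ)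
  det : (dt M).B.det ≠ 0
  der : ∀ X, (dt M).Lie X → ∃ y, X = adm M y
  ani : ∀ y, IsNilpotent (adm M y) → y = 0
  spn : ∀ N : Subgroup Γ, N.Normal → (∃ n ∈ N, r n ≠ 1) → Submodule.span k (r '' N) = ⊤
  crv : ∃ d P, Crv r d P ∧ P.map (coeff · 1) ≠ d.coeff 1 • 1
  con : ∀ i, i ≠ v → ∀ e, IsPreconnected (Metric.closedBall (0 : E i) e)
  path : ∃ d P, Crv r d P ∧ d.eval 1 • r x0 = P.map (eval 1) ∧ ∀ i, i ≠ v →
    ∃ I : Set (E i), IsPreconnected I ∧ 0 ∈ I ∧ 1 ∈ I ∧ ∀ t ∈ I, aeval t d ≠ 0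
  int : IsIntegral O (r x0) ∧ IsIntegral O (r x0⁻¹)
  hst : ∀ h ∈ H, ((dt M).map (algebraMap k (E v))).Stab h.1
  rat : ∀ γ, P011ND.pp E r γ v ∈ H
  isg : ∀ Λ : Subgroup (Matrix n n k)ˣ, Λ.FG →
    (∀ δ ∈ Λ, ∃ h ∈ H, h.1 = δ.1.map (algebraMap k (E v))) → r.toHomUnits.range.relIndex Λ ≠ 0
  gen : ∃ (A : Type) (_ : Finite A) (x : A → E v → (Matrix n n (E v))ˣ)
    (Q : A → Matrix n n (E v)[X]) (t : A → Γ) (l : A → E v),
    (∀ a u, (x a u).1 = (Q a).map (eval u)) ∧ (∀ a u u', x a (u + u') = x a u * x a u') ∧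
    (∃ a u, x a u ≠ 1) ∧ H = Subgroup.closure (⋃ a, Set.range (x a)) ∧ ∀ a, l a ≠ 0 ∧ ‖l a‖ < 1 ∧
      ∀ u, P011ND.pp E r (t a) v * x a u * (P011ND.pp E r (t a) v)⁻¹ = x a (l a * u)

/-- The normal subgroup theorem. -/
def ANA : Prop := ∀ (k ι n Γ : Type) [Field k] [CharZero k] [Fintype ι] [Fintype n]
  [DecidableEq n] [Group Γ] (E : ι → Type) [∀ i, NontriviallyNormedField (E i)]
  [∀ i, ProperSpace (E i)] [∀ i, Algebra k (E i)] (O : Subring k) (v : ι) (M : n → Matrix n n k)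
  (r : Γ →* Matrix n n k) H x0, An E O v M r H x0 → ∀ N : Subgroup Γ, N.Normal →
    (∃ n ∈ N, r n ≠ 1) → ∃ e : ℕ, 0 < e ∧ ∃ n ∈ N, r (x0 ^ e) = r n

end Vale.Agent.P011UT4
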