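import Vale.Agent.P011UT4.Tor

/-!
The normal subgroup theorem for anisotropic forms: assembly.
-/

set_option autoImplicit false
set_option linter.all false

namespace Vale.Agent.P011UT4

open Matrix Polynomial Vale.Agent.P011L Vale.Agent.P183CH Vale.Agent.P183CH.Chev
  Vale.Agent.P011U Vale.Agent.P011UGA Vale.Agent.P011UGM1

section

variable {E : Type} [Field E] {D : Chev} {m : ℕ} {b : Fin m → D.Mat E}
  {ρ : D.grp E →* Matrix (Fin m) (Fin m) E}

theorem Rp.triv (h : Bs b) (hρ : Rp b ρ) {g : D.grp E} (e : ρ g = 1) :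
    ∀ X ∈ gg D E, Ad g.1 X = X := fun X hX => by
  obtain ⟨y, rfl⟩ := h.surj hX
  rw [hρ.co, e, one_mulVec]

theorem Rp.poly (h : Bs b) (hρ : Rp b ρ) {γ : D.Q} (hγ : γ ∈ D.R.Φ) :
    ∃ Q : Matrix (Fin m) (Fin m) E[X], ∀ u, ρ ((GG D E).x γ u) = Q.map (eval u) := by
  obtain ⟨p, hp⟩ := LinearMap.exists_leftInverse_of_injective (P011UT4.co b)
    (LinearMap.ker_eq_bot.2 h.inj)
  refine ⟨of fun i j => ∑ a ∈ Finset.range D.n, ∑ c ∈ Finset.range D.n, X ^ a * (-X) ^ c *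
    C (p (ct E (D.EE γ a) * b j * ct E (D.EE γ c)) i), fun u => Matrix.ext fun i j => ?_⟩
  have e := congrArg (fun Y => p Y i) (hρ ((GG D E).x γ u) j)
  have e' := congrFun (LinearMap.congr_fun hp fun i => ρ ((GG D E).x γ u) i j) i
  refine e'.symm.trans (e.symm.trans ?_)
  rw [GG_x (mem_Φ.1 hγ), Ad_apply]
  show p (ex (D.EE γ) u * _ * ex (D.EE γ) (-u)) i = _
  simp only [ex, Finset.sum_mul, Finset.mul_sum, smul_mul_assoc, mul_smul_comm, map_sum, map_smul,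
    Finset.sum_apply, Pi.smul_apply, smul_eq_mul, map_apply, of_apply, eval_finset_sum, eval_mul,
    eval_pow, eval_neg, eval_X, eval_C]
  rw [Finset.sum_comm]
  exact Finset.sum_congr rfl fun _ _ => Finset.sum_congr rfl fun _ _ => by ring

end

/-- The statement for every node. -/
def TXA : Prop := AllP fun k _ _ _ _ D T _ π _ => Ort D.R π → NumberField k → T.Ani →
  ∀ N, Nm T N → Nc T N → ∀ i, ∃ a ∈ N ⊓ FJ T (orb π i), ∃ b ∈ FJ T (orb π i), ¬Commute a b

theorem torx_all (kfx : KFX) (kil : KIL) (sim : SIM) (nil : NIL) (spn : SPN) (isg : ISG)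
    (crv : CRV) (int : INT) (ari : ARI) (cen : CEN) (ana : ANA) : TXA := by
  classical
  intro k K _ _ _ _ D hk hD T ε π d h o nf ani N hN ⟨n, hn, g, hg, hc⟩ i
  have : CharZero K := charZero_of_injective_algebraMap (algebraMap k K).injective
  obtain ⟨a', ha', b', hb', nc⟩ := nag k K D hk hD T ε π d h o i
  obtain ⟨F, _, _, ε, π, rfl, rfl⟩ := ex_field h.near
  obtain ⟨m, b, M, ρ, r, kf⟩ := kfx k K D hD T _ _ d h F fun τ e => by simp [rs_one e]
  obtain ⟨e0, e1, cen⟩ := cen D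
  have ker : ∀ γ : T.fix, r γ = 1 → (∀ g, γ.1 * g = g * γ.1) ∧ γ.1 ^ e0 = 1 := fun γ e =>
    cen K _ (kf.rp.triv ((bs_map _ b).2 kf.bs) (by
      rw [← kf.rr, e, Matrix.map_one _ (map_zero _) (map_one _)]))
  obtain ⟨ι, _, E, _, _, _, O, v, φ, z, pls, z0, z1, z2, i1, i2, arc⟩ := ari k F
  have : CharZero (E v) := charZero_of_injective_algebraMap (algebraMap k (E v)).injective
  have bE := (bs_map (φ : F →+* E v) b).2 kf.bs
  obtain ⟨ρ', hρ'⟩ := ex_rp bE
  obtain ⟨ρ0, hρ0⟩ := ex_rp kf.bs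
  have rat : ∀ (γ : T.fix) g, fm D (algebraMap F K) g = γ.1 →
      P011ND.pp E r γ v = ρ'.toHomUnits (fm D φ g) := fun γ g e => Units.ext (by
    have e1 : ρ0 g = (r γ).map (algebraMap k F) := map_injective (algebraMap F K).injective (by
      refine (rp_map _ kf.bs hρ0 kf.rp g).symm.trans ?_
      rw [e, ← kf.rr]
      rfl)
    refine Eq.trans ?_ (rp_map _ kf.bs hρ0 hρ' g).symm
    rw [e1]
    exact Matrix.ext fun a c => (φ.commutes _).symm)
  let w := Units.mk0 z z0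
  have nr := ex_nr hD h
  obtain ⟨x0, hx0⟩ := nr i w
  obtain ⟨s1, s2, s3, s4⟩ := sim k K D hD T F m b M ρ r kf
  obtain ⟨k1, k2, -⟩ := kil k _ M s1 s2 s3 s4
  obtain ⟨c1, c2⟩ := crv k K D hD T F m b M ρ r kf ε π i (nr i)
  have st : ∀ γ, (dt M).Stab (r γ) := fun γ => by
    have e2 := stab_of_rp ((bs_map _ b).2 kf.bs) (kf.sc.map (algebraMap F K)) kf.rp γ.1
    rw [← kf.rr, dt_map] at e2
    refine stab_of (g' := r γ⁻¹) (by rw [← map_mul, mul_inv_cancel, map_one]) fun x y => ?_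
    have e3 := Stab.adm e2 (algebraMap k K ∘ x)
    have e4 : adm M (r γ *ᵥ x) * r γ = r γ * adm M x := map_injective (algebraMap k K).injective (by
      simp only [Matrix.map_mul, ← adm_map]
      rw [← P011ND.mulVec_map]
      exact e3)
    rw [mulVec_mulVec, mulVec_mulVec, e4]
  have hγ : ∀ a : Fin D.R.r × ℤˣ, (a.2 : ℤ) • D.R.α a.1 ∈ D.R.Φ := fun a => by
    rcases Int.units_eq_one_or a.2 with e | e
    · simpa [e] using (R_ok D).simple a.1
    · simpa [e] using (R_ok D).neg_mem ((R_ok D).simple a.1)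
  have nz : ∀ (j : Fin D.R.r) (s : ℤ) c, ‖(φ : F →+* E v) (nrm ε π j (w ^ s) c)‖ =
      if c = j then ‖φ z‖ ^ s else 1 := fun j s c => by
    rw [nrm_norm ε π j _ _ fun σ e => by simp [w, z2 σ e]]
    simp [w]
  have p0 : 0 < ‖φ z‖ := norm_pos_iff.2 ((map_ne_zero φ).2 z0)
  have an : An E O v M r ρ'.toHomUnits.range x0 := by
    refine ⟨pls, st, k1, k2, nil k K D hD T F m b M ρ r kf ani, spn k K D hD T F m b M ρ r kf, c2,
      fun j e => (arc j e).1, ?_, int k K D hD T F m b M ρ r kf ε π i O w x0 i1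
        (by simpa [w] using i2) hx0, ?_, fun γ => ?_, fun Λ f l =>
      isg k K D hD T F m b M ρ r kf _ φ ρ' hρ' Λ f fun δ e => ?_, ?_⟩
    · obtain ⟨d, N, P, a1, a2, a3⟩ := c1 (z - 1)
      refine ⟨_, P, a2, a3 1 w x0 (by simp [w]) hx0, fun j e => ?_⟩
      obtain ⟨I, j1, j2, j3, j4⟩ := (arc j e).2 d a1
      exact ⟨I, j1, j2, j3, fun t ht => by rw [map_pow]; exact pow_ne_zero _ (j4 t ht)⟩
    · rintro _ ⟨g, rfl⟩
      have := stab_of_rp bE (kf.sc.map (φ : F →+* E v)) hρ' g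
      rwa [φ.comp_algebraMap] at this
    · obtain ⟨g, e⟩ := ex_rat hD h γ
      exact ⟨_, (rat γ g e).symm⟩
    · obtain ⟨_, ⟨g, rfl⟩, c⟩ := l δ e
      exact ⟨g, c⟩
    choose Q hQ using fun a => hρ'.poly bE (hγ a)
    choose t ht using fun a : Fin D.R.r × ℤˣ => nr a.1 (w ^ (a.2 : ℤ))
    refine ⟨_, inferInstance, fun a u => ρ'.toHomUnits ((GG D _).x ((a.2 : ℤ) • D.R.α a.1) u), Q, t,
      fun a => (RG.chi0 D.R (E v) ((a.2 : ℤ) • D.R.α a.1) fun c => Units.map (φ : F →+* E v).toMonoidHom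
        (nrm ε π a.1 (w ^ (a.2 : ℤ)) c) : (E v)ˣ), hQ, fun a u u' => ?_, ⟨(i, 1), 1, fun e => ?_⟩,
      ?_, fun a => ⟨Units.ne_zero _, ?_, fun u => ?_⟩⟩
    · exact (congrArg _ (GG_ok.add _ (hγ a) u u')).trans (map_mul _ _ _)
    · have e2 := (cen _ _ (hρ'.triv bE (congrArg Units.val e))).2
      have e3 : ∀ c : ℕ, (GG D (E v)).x (((1 : ℤˣ) : ℤ) • D.R.α i) 1 ^ c =
          (GG D (E v)).x (((1 : ℤˣ) : ℤ) • D.R.α i) c := fun c => by
        induction c with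
        | zero => simpa using (GG_ok.x_zero (hγ (i, 1))).symm
        | succ c ih => rw [pow_succ, ih, Nat.cast_succ, GG_ok.add _ (hγ (i, 1))]
      exact e1.ne' (Nat.cast_eq_zero.1 (GG_ok.x_eq_one (R_ok D) (hγ (i, 1)) ((e3 _).symm.trans e2)))
    · rw [MonoidHom.range_eq_map, ← GG_ok.gen, MonoidHom.map_closure]
      refine congrArg _ (Set.ext fun y => ⟨?_, fun c => ?_⟩)
      · rintro ⟨_, ⟨j, u, rfl | rfl⟩, rfl⟩
        · exact Set.mem_iUnion.2 ⟨(j, 1), u, by simp⟩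
        · exact Set.mem_iUnion.2 ⟨(j, -1), u, by simp⟩
      · obtain ⟨⟨j, s⟩, u, rfl⟩ := Set.mem_iUnion.1 c
        rcases Int.units_eq_one_or s with rfl | rfl
        · exact ⟨_, ⟨j, u, .inl rfl⟩, by simp⟩
        · exact ⟨_, ⟨j, u, .inr rfl⟩, by simp⟩
    · beta_reduce
      rw [RG.chi0_apply, Units.coe_prod, norm_prod, Finset.prod_eq_single a.1
        (fun c _ e => by
          rw [Units.val_zpow_eq_zpow_val, norm_zpow]
          exact (congrArg (· ^ _) ((nz a.1 a.2 c).trans (if_neg e))).trans (_root_.one_zpow _))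
        (by simp)]
      have e2 := nz a.1 a.2 a.1
      rw [if_pos rfl] at e2
      have e3 : D.R.pr ((a.2 : ℤ) • D.R.α a.1) a.1 = a.2 * 2 := by
        rw [← RS.prL_apply, map_smul, RS.prL_apply, RS.pr_α, (R_ok D).diag, smul_eq_mul]
      rw [Units.val_zpow_eq_zpow_val, norm_zpow, e3]
      refine (congrArg (· ^ _) e2).trans_lt ?_
      rw [← _root_.zpow_mul, ← mul_assoc, ← Units.val_mul, Int.units_mul_self]
      exact zpow_lt_one₀ p0 z1 (by simp)
    · rw [rat _ _ (ht a).symm, ← map_inv, ← map_mul, ← map_mul, fm_hT, GG_ok.hT_x _ (hγ a)]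
  obtain ⟨e, e2, y, hy, e3⟩ := ana k ι _ _ E O v M r _ x0 an (N.subgroupOf T.fix)
    ⟨fun y hy g => hN.2 g.1 g.2 _ hy⟩ ⟨⟨n, hN.1 hn⟩, hn, fun c => hc ((ker _ c).1 g)⟩
  obtain ⟨q1, q2⟩ := ker (y⁻¹ * x0 ^ e) (by rw [map_mul, e3, ← map_mul, inv_mul_cancel, map_one])
  have q3 : (x0 ^ (e * e0)).1 = y.1 ^ e0 := by
    have q4 : (x0 ^ e).1 = y.1 * (y⁻¹ * x0 ^ e).1 := by simp
    rw [pow_mul, Subgroup.coe_pow, q4, Commute.mul_pow (q1 _).symm, q2, mul_one]
  set s : Fin D.R.r → Kˣ := (fun c => Units.map (algebraMap F K).toMonoidHom (nrm ε π i w c)) ^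
    (e * e0) with hs
  have q5 : (x0 ^ (e * e0)).1 = hT D K s := by
    rw [Subgroup.coe_pow, hx0, fm_hT, ← map_pow]
  have sj : Function.Surjective (rs F) := AlgEquiv.restrictNormalHom_surjective K
  have h0 : ∀ c ∉ orb (π.comp (rs F)) i, s c = 1 := fun c l => by
    rw [hs, Pi.pow_apply, nrm_out ε π i w fun σ l' => l ((sj σ).imp fun τ l'' => by
      rw [MonoidHom.comp_apply, l'', l']), map_one, one_pow]
  have h1 : ∀ c ∈ orb (π.comp (rs F)) i, s c ^ 2 ≠ 1 := by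
    rintro _ ⟨σ, rfl⟩ l
    rw [hs, Pi.pow_apply, MonoidHom.comp_apply, nrm_eqv, ← pow_mul, ← map_pow,
      map_eq_one_iff _ (Units.map_injective (algebraMap F K).injective), ← zpow_natCast,
      zpow_comm, ← map_zpow] at l
    have l2 := congrArg (· ^ (ε (rs F σ) : ℤ)) l
    simp only [← _root_.zpow_mul, ← Units.val_mul, Int.units_mul_self, Units.val_one, zpow_one,
      _root_.one_zpow] at l2
    have l3 := congrArg (fun x : Fˣ => ‖(φ : F →+* E v) x‖) ((map_eq_one_iff _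
      (Units.map_injective (f := (rs F σ : F →* F)) (rs F σ).injective)).1 l2)
    have l4 := nz i 1 i
    simp only [zpow_one, if_true] at l4
    simp only [zpow_natCast, Units.val_pow_eq_pow_val, map_pow, norm_pow, l4, Units.val_one,
      map_one, norm_one] at l3
    exact (pow_lt_one₀ p0.le z1 (by positivity)).ne l3
  have hA : hT D K s ∈ N ⊓ FJ T (orb (π.comp (rs F)) i) :=
    ⟨q5 ▸ q3 ▸ pow_mem hy _, q5 ▸ (x0 ^ (e * e0)).2,
      (PH_dg GG_ok (R_ok D) (og o i) h0).subst (motive := (· ∈ LJ (GG D K) _))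
        (PH_LJ GG_ok (R_ok D) (og o i) _)⟩
  by_contra! c
  exact nc 1 one_pos (by
    simpa using comm_reg hD (og o i) h0 h1 ha'.2 hb'.2 (c _ hA _ ha') (c _ hA _ hb'))

theorem torx_of (h : TXA) : TORX := fun k K _ _ _ _ D hk hD T ε π d H _ o _ nf a N b c =>
  ⟨⟨0, (R_ok D).pos⟩, h k K D hk hD T ε π d H o nf a N b c _⟩

end Vale.Agent.P011UT4
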