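import Vale.Agent.P011UT4.Defs
import Vale.Agent.P011UC.Lie

/-!
Bases of the Lie algebra: change of the field, coordinates, the adjoint representation.
-/

set_option autoImplicit false
set_option linter.all false

namespace Vale.Agent.P011UT4

open Matrix Vale.Agent.P011L Vale.Agent.P183CH Vale.Agent.P183CH.Chev Vale.Agent.P011U

section

variable {n R S : Type} [Fintype n] [DecidableEq n] [CommRing R] [CommRing S]
  (M : n → Matrix n n R)

theorem adm_mulVec (x y : n → R) : adm M x *ᵥ y = (dt M).mu x y := by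
  funext a
  simp only [adm, mulVec, dotProduct, of_apply, P011ND.Dt.mu, P011ND.bf, dt, Finset.sum_mul,
    Finset.mul_sum, mul_assoc]
  exact Finset.sum_comm

/-- `adm` as a linear map -/
def adl : (n → R) →ₗ[R] Matrix n n R where
  toFun := adm M
  map_add' x y := by
    ext a b
    simp [adm, add_mul, Finset.sum_add_distrib]
  map_smul' c x := by
    ext a b
    simp [adm, Finset.mul_sum, mul_assoc]

theorem adl_apply (x : n → R) : adl M x = adm M x := rfl

theorem adm_map (f : R →+* S) (y : n → R) :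
    adm (fun a => (M a).map f) (f ∘ y) = (adm M y).map f := by
  ext a b
  simp [adm]

theorem dt_map (f : R →+* S) : (dt M).map f = dt fun a => (M a).map f := by
  have e : ∀ i : n, (Pi.single i 1 : n → S) = f ∘ Pi.single i 1 := fun i => by
    funext j
    by_cases h : j = i <;> simp [h]
  simp only [dt, P011ND.Dt.map, e, adm_map, ← Matrix.map_mul, ← AddMonoidHom.map_trace]
  congr 1
  exact funext fun a => a.elim

theorem bf_dt (x y : n → R) : P011ND.bf (dt M).B x y = (adm M x * adm M y).trace := by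
  conv_rhs => rw [pi_eq_sum_univ' x, pi_eq_sum_univ' y]
  simp only [← adl_apply, map_sum, map_smul, Finset.sum_mul, Finset.mul_sum, smul_mul_assoc,
    mul_smul_comm, trace_sum, trace_smul, smul_eq_mul, P011ND.bf, dotProduct, mulVec, dt, of_apply]
  rw [Finset.sum_comm]
  exact Finset.sum_congr rfl fun _ _ => Finset.sum_congr rfl fun _ _ => by ring

variable {M}

theorem adm_conj {g : Matrix n n R} (h : ∀ x y, g *ᵥ (adm M x *ᵥ y) = adm M (g *ᵥ x) *ᵥ (g *ᵥ y))
    (x : n → R) : adm M (g *ᵥ x) * g = g * adm M x :=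
  toLin'.injective (LinearMap.ext fun y => by
    simp only [toLin'_apply, ← mulVec_mulVec, h])

theorem Stab.adm {g : Matrix n n R} (h : (dt M).Stab g) (x : n → R) :
    adm M (g *ᵥ x) * g = g * adm M x :=
  adm_conj (fun x y => by rw [adm_mulVec, adm_mulVec, (P011ND.Dt.stab_iff.1 h).2.2]) x

theorem stab_of {g g' : Matrix n n R} (e : g * g' = 1)
    (h : ∀ x y, g *ᵥ (adm M x *ᵥ y) = adm M (g *ᵥ x) *ᵥ (g *ᵥ y)) : (dt M).Stab g := by
  have h1 : ∀ x, adm M (g *ᵥ x) = g * adm M x * g' := fun x => by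
    rw [← adm_conj h, mul_assoc, e, mul_one]
  refine P011ND.Dt.stab_iff.2 ⟨fun a => a.elim, fun x y => ?_, fun x y => by
    rw [← adm_mulVec, ← adm_mulVec, h]⟩
  rw [bf_dt, bf_dt, h1, h1, mul_assoc, mul_assoc, trace_mul_comm, mul_assoc, mul_assoc, mul_assoc,
    mul_eq_one_comm.1 e, mul_one, ← mul_assoc g', mul_eq_one_comm.1 e, one_mul]

end

variable {E E' : Type} [Field E] [Field E'] {D : Chev} {m : ℕ}

/-- a linear retraction -/
theorem ex_retr (f : E →+* E') : ∃ p : E' →+ E, p 1 = 1 ∧ ∀ c x, p (c * f x) = p c * x := by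
  let _ := f.toAlgebra
  obtain ⟨p, hp⟩ := LinearMap.exists_leftInverse_of_injective (Algebra.linearMap E E')
    (LinearMap.ker_eq_bot.2 f.injective)
  refine ⟨p.toAddMonoidHom, ?_, fun c x => ?_⟩
  · simpa using LinearMap.congr_fun hp 1
  · rw [mul_comm, mul_comm _ x]
    exact p.map_smul x c

theorem span_map {n : Type} [Fintype n] (f : E →+* E') (S : Set (Matrix n n E))
    (X : Matrix n n E) :
    X.map f ∈ Submodule.span E' ((·.map f) '' S) ↔ X ∈ Submodule.span E S := by
  refine ⟨fun h => ?_, fun h => ?_⟩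
  · obtain ⟨p, h1, h2⟩ := ex_retr f
    have key : ∀ Y ∈ Submodule.span E' ((·.map f) '' S), ∀ c : E',
        (c • Y).map p ∈ Submodule.span E S := fun Y hY => by
      induction hY using Submodule.span_induction with
      | mem Y hY =>
        obtain ⟨Y, hY, rfl⟩ := hY
        intro c
        have : (c • Y.map f).map p = p c • Y := Matrix.ext fun a b => h2 _ _
        exact this ▸ Submodule.smul_mem _ _ (Submodule.subset_span hY)
      | zero => exact fun c => by simp
      | add Y Z _ _ a b =>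
        intro c
        rw [smul_add, Matrix.map_add _ p.map_add]
        exact add_mem (a c) (b c)
      | smul c' Y _ a => exact fun c => smul_smul c c' Y ▸ a _
    have e : ((1 : E') • X.map f).map p = X := Matrix.ext fun a b =>
      (h2 _ _).trans (by rw [h1, one_mul])
    exact e ▸ key _ h 1
  · induction h using Submodule.span_induction with
    | mem Y hY => exact Submodule.subset_span ⟨Y, hY, rfl⟩
    | zero => simp
    | add Y Z _ _ a b => exact Matrix.map_add f f.map_add Y Z ▸ add_mem a b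
    | smul c Y _ a =>
      have : (c • Y).map f = f c • Y.map f := Matrix.ext fun a b => f.map_mul _ _
      exact this ▸ Submodule.smul_mem _ _ a

theorem gg_eq (f : E →+* E') : ∃ S, gg D E = Submodule.span E S ∧
    gg D E' = Submodule.span E' ((·.map f) '' S) := by
  refine ⟨_, rfl, congrArg (Submodule.span E') (Set.ext fun X => ⟨?_, ?_⟩)⟩
  · rintro (⟨γ, a, b, rfl⟩ | ⟨i, rfl⟩)
    · exact ⟨_, .inl ⟨γ, a, b, rfl⟩, map_ct f _⟩
    · exact ⟨_, .inr ⟨i, rfl⟩, map_ct f _⟩
  · rintro ⟨_, ⟨γ, a, b, rfl⟩ | ⟨i, rfl⟩, rfl⟩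
    · exact .inl ⟨γ, a, b, map_ct f _⟩
    · exact .inr ⟨i, map_ct f _⟩

theorem gg_map (f : E →+* E') (X : D.Mat E) : X.map f ∈ gg D E' ↔ X ∈ gg D E := by
  obtain ⟨S, a, b⟩ := gg_eq (D := D) f
  rw [a, b, span_map]

/-- the element with given coordinates -/
def co (b : Fin m → D.Mat E) : (Fin m → E) →ₗ[E] D.Mat E := Fintype.linearCombination E b

theorem co_apply (b : Fin m → D.Mat E) (y : Fin m → E) : co b y = ∑ j, y j • b j := rfl

theorem co_single (b : Fin m → D.Mat E) (j : Fin m) : co b (Pi.single j 1) = b j := by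
  simp [co]

theorem co_map (f : E →+* E') (b : Fin m → D.Mat E) (y : Fin m → E) :
    co (bm f b) (f ∘ y) = (co b y).map f := by
  ext a c
  simp [co_apply, bm, Matrix.sum_apply]

theorem ind_map (f : E →+* E') (b : Fin m → D.Mat E) :
    LinearIndependent E' (bm f b) ↔ LinearIndependent E b := by
  simp only [Fintype.linearIndependent_iff]
  refine ⟨fun h y e j => f.injective ((h (f ∘ y) ?_ j).trans f.map_zero.symm), fun h y e j => ?_⟩
  · exact (co_map f b y).trans (by rw [co_apply, e]; exact Matrix.map_zero _ f.map_zero)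
  · by_contra c
    obtain ⟨p, h1, h2⟩ := ex_retr f
    have := h (fun i => p ((y j)⁻¹ * y i)) (Matrix.ext fun a a' => ?_) j
    · rw [inv_mul_cancel₀ c, h1] at this
      exact one_ne_zero this
    · have e' := congrArg (fun X => p ((y j)⁻¹ * X a a')) e
      simpa [Matrix.sum_apply, Finset.mul_sum, ← mul_assoc, bm, h2] using e'

theorem bs_map (f : E →+* E') (b : Fin m → D.Mat E) : Bs (bm f b) ↔ Bs b := by
  have e : Set.range (bm f b) = (·.map f) '' Set.range b := by rw [← Set.range_comp]; rfl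
  obtain ⟨S, h1, h2⟩ := gg_eq (D := D) f
  rw [Bs, Bs, ind_map, e, h1, h2]
  refine and_congr_right fun _ => ⟨fun h => Submodule.ext fun X => ?_, fun h => ?_⟩
  · rw [← span_map f, h, span_map]
  · refine le_antisymm (Submodule.span_le.2 ?_) (Submodule.span_le.2 ?_) <;> rintro _ ⟨X, a, rfl⟩
    · exact (span_map f _ X).2 (h ▸ Submodule.subset_span a)
    · exact (span_map f _ X).2 (h.symm ▸ Submodule.subset_span a)

variable {b : Fin m → D.Mat E} {ρ : D.grp E →* Matrix (Fin m) (Fin m) E}

theorem Bs.inj (h : Bs b) : Function.Injective (co b) := h.1.fintypeLinearCombination_injective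

theorem Bs.range (h : Bs b) : LinearMap.range (co b) = gg D E := by
  rw [co, Fintype.range_linearCombination, h.2]

theorem Bs.mem (h : Bs b) (y : Fin m → E) : co b y ∈ gg D E := h.range ▸ ⟨y, rfl⟩

theorem Bs.surj (h : Bs b) {X : D.Mat E} (hX : X ∈ gg D E) : ∃ y, co b y = X :=
  (h.range.symm ▸ hX : X ∈ LinearMap.range (co b))

theorem Rp.co (h : Rp b ρ) (g : D.grp E) (y : Fin m → E) : Ad g.1 (co b y) = co b (ρ g *ᵥ y) := by
  simp only [co_apply, map_sum, map_smul, h g, Finset.smul_sum, smul_smul, mulVec, dotProduct,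
    Finset.sum_smul, mul_comm]
  exact Finset.sum_comm

theorem mat_ext (h : Bs b) {A B : Matrix (Fin m) (Fin m) E} (e : ∀ y, co b (A *ᵥ y) = co b (B *ᵥ y)) :
    A = B := toLin'.injective (LinearMap.ext fun y => h.inj (e y))

theorem Bs.eq_of (h : Bs b) (hρ : Rp b ρ) {g : D.grp E} {A : Matrix (Fin m) (Fin m) E}
    (e : ∀ j, Ad g.1 (b j) = ∑ i, A i j • b i) : ρ g = A :=
  Matrix.ext fun i j => congrFun (h.inj (a₁ := fun i => ρ g i j) (a₂ := fun i => A i j)
    ((hρ g j).symm.trans (e j))) i

theorem ad_gg (g : D.grp E) {X : D.Mat E} (h : X ∈ gg D E) : Ad g.1 X ∈ gg D E :=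
  P011UC.lie_ok D E _ GG_ok g (((GG_ok (k := E)).GJ_univ (R_ok D)).symm ▸ Subgroup.mem_top g) X h

theorem ex_rp (h : Bs b) : ∃ ρ, Rp b ρ := by
  choose A hA using fun (g : D.grp E) j => h.surj (ad_gg g (co_single b j ▸ h.mem _))
  have key : ∀ g y, Ad g.1 (co b y) = co b ((of fun i j => A g j i) *ᵥ y) := fun g y => by
    simp only [co_apply, map_sum, map_smul, ← hA g, Finset.smul_sum, smul_smul, mulVec, dotProduct,
      Finset.sum_smul, mul_comm, of_apply]
    exact Finset.sum_comm
  refine ⟨⟨⟨fun g => of fun i j => A g j i, mat_ext h fun y => ?_⟩, fun g g' =>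
    mat_ext h fun y => ?_⟩, fun g j => (hA g j).symm⟩
  · rw [← key, one_mulVec]
    simp [Ad_apply]
  · rw [← mulVec_mulVec, ← key, ← key, ← key, ← Ad_mul]
    rfl

theorem map_Ad (f : E →+* E') (g : D.grp E) (X : D.Mat E) :
    Ad (fm D f g).1 (X.map f) = (Ad g.1 X).map f := by
  rw [Ad_apply, Ad_apply, Matrix.map_mul, Matrix.map_mul, ← Subgroup.coe_inv, ← map_inv]
  rfl

theorem rp_map (f : E →+* E') (h : Bs b) (hρ : Rp b ρ) {ρ' : D.grp E' →* _}
    (hρ' : Rp (bm f b) ρ') (g : D.grp E) : ρ' (fm D f g) = (ρ g).map f :=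
  ((bs_map f b).2 h).eq_of hρ' fun j => (map_Ad f g _).trans (by
    rw [hρ g j]
    exact (co_map f b fun i => ρ g i j).symm)

variable {k : Type} [Field k] {f : k →+* E} {M : Fin m → Matrix (Fin m) (Fin m) k}

theorem Sc.map (h : Sc f b M) (f' : E →+* E') : Sc (f'.comp f) (bm f' b) M := fun i j => by
  have := congrArg (·.map f') (h i j)
  simp only [Matrix.map_sub _ f'.map_sub, Matrix.map_mul] at this
  exact this.trans (co_map f' b fun l => f (M l i j)).symm

theorem Sc.co (h : Sc f b M) (x y : Fin m → E) : co b x * co b y - co b y * co b x =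
    co b (adm (fun a => (M a).map f) x *ᵥ y) := by
  have e : ∀ i j, b i * b j = b j * b i + ∑ l, f (M l i j) • b l := fun i j => by
    rw [← h, add_sub_cancel]
  rw [co_apply, co_apply, Finset.sum_mul_sum, Finset.sum_mul_sum, Finset.sum_comm (f := fun i j =>
    y i • b i * x j • b j), ← Finset.sum_sub_distrib]
  simp only [← Finset.sum_sub_distrib, smul_mul_smul_comm, mul_comm (y _), ← smul_sub, h _ _,
    co_apply, adm, mulVec, dotProduct, of_apply, map_apply, Finset.sum_mul, Finset.sum_smul,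
    Finset.smul_sum, smul_smul]
  rw [Finset.sum_comm]
  conv_rhs => rw [Finset.sum_comm]
  refine Finset.sum_congr rfl fun _ _ => ?_
  rw [Finset.sum_comm]
  exact Finset.sum_congr rfl fun _ _ => Finset.sum_congr rfl fun _ _ => by rw [mul_right_comm]

theorem stab_of_rp (h : Bs b) (hM : Sc f b M) (hρ : Rp b ρ) (g : D.grp E) :
    ((dt M).map f).Stab (ρ g) := by
  rw [dt_map]
  refine stab_of (g' := ρ g⁻¹) (by rw [← map_mul, mul_inv_cancel, map_one]) fun x y => h.inj ?_
  rw [← hρ.co, ← hM.co, ← hM.co, ← hρ.co, ← hρ.co, map_sub, Ad_mul', Ad_mul']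

end Vale.Agent.P011UT4
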