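import Vale.Agent.P011UT4.Plug
import Vale.Agent.P011UBL.Ari

/-!
The normal subgroup theorem for anisotropic forms.
-/

set_option autoImplicit false
set_option linter.all false

namespace Vale.Agent.P011UT4

theorem txa : TXA := txa_of P011UBL.ari

theorem torx : P011UGA.TORX := torx_of txa

end Vale.Agent.P011UT4
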