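import Vale.Agent.P011UT4.Asm
import Vale.Agent.P011UT9.Kfx
import Vale.Agent.P011UT9.Main
import Vale.Agent.P011UZK.Kil
import Vale.Agent.P011UV2.Sim
import Vale.Agent.P011UV2.Isg
import Vale.Agent.P011UT6.Nil
import Vale.Agent.P011US5.Spn
import Vale.Agent.P011UT5.Main
import Vale.Agent.P011UN.Ano
import Vale.Agent.P011UE1.TxCoc

/-!
The normal subgroup theorem for anisotropic forms, from the arithmetic input.
-/

set_option autoImplicit false
set_option linter.all false

namespace Vale.Agent.P011UT4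

theorem txa_of (ari : ARI) : TXA :=
  torx_all (P011UT9.kfx P011UT5.irr) P011UZK.kil (P011UV2.sim P011UT5.irr)
    (P011UT6.nil P011UZK.kil (P011UV2.sim P011UT5.irr) P011UT5.exp P011UT5.cen)
    (P011US5.spn P011UT5.irr) (P011UV2.isg P011UT5.cen) P011UT9.crv P011UT9.int ari P011UT5.cen
    (P011UN.ana P011UE1.coc)

theorem torx_ari (ari : ARI) : P011UGA.TORX := torx_of (txa_of ari)

end Vale.Agent.P011UT4
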