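import Vale.Agent.P011UT4.Kit
import Vale.Agent.P011UGM1.Main

/-!
Norms of coroot elements, rational points, the last step.
-/

set_option autoImplicit false
set_option linter.all false

namespace Vale.Agent.P011UT4

open Matrix Vale.Agent.P011L Vale.Agent.P183CH Vale.Agent.P183CH.Chev Vale.Agent.P011U
  Vale.Agent.P011UGA Vale.Agent.P011UGM1

section

variable {k F : Type} [Field k] [Field F] [Algebra k F] [FiniteDimensional k F] {r : ℕ}
  (ε : (F ≃ₐ[k] F) →* ℤˣ) (π : (F ≃ₐ[k] F) →* Equiv.Perm (Fin r)) (j : Fin r) (w : Fˣ)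

theorem nrm_eqv (σ : F ≃ₐ[k] F) (m : Fin r) :
    nrm ε π j w (π σ m) = Units.map (σ : F →* F) (nrm ε π j w m) ^ (ε σ : ℤ) := by
  simp only [nrm, Finset.prod_apply, map_prod, ← Finset.prod_zpow]
  rw [← Equiv.prod_comp (Equiv.mulLeft σ)]
  refine Finset.prod_congr rfl fun τ _ => ?_
  by_cases e : m = π τ j
  · subst e
    simp only [Equiv.coe_mulLeft, map_mul, Equiv.Perm.mul_apply, Pi.mulSingle_apply, map_zpow,
      Units.val_mul, ← _root_.zpow_mul, mul_comm (ε σ : ℤ), if_true]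
    rfl
  · rw [Pi.mulSingle_eq_of_ne e, Pi.mulSingle_eq_of_ne (by simpa using e), map_one, _root_.one_zpow]

theorem nrm_out {m : Fin r} (h : ∀ σ, π σ j ≠ m) : nrm ε π j w m = 1 := by
  rw [nrm, Finset.prod_apply]
  exact Finset.prod_eq_one fun σ _ => Pi.mulSingle_eq_of_ne (h σ).symm _

theorem nrm_norm {E : Type} [NormedField E] (φ : F →+* E)
    (h : ∀ σ : F ≃ₐ[k] F, σ ≠ 1 → ‖φ (σ w)‖ = 1) (m : Fin r) :
    ‖φ (nrm ε π j w m)‖ = if m = j then ‖φ w‖ else 1 := by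
  classical
  rw [nrm, Finset.prod_apply, Units.coe_prod, map_prod, norm_prod,
    Finset.prod_eq_single 1 (fun σ _ e => ?_) (by simp)]
  · by_cases e : m = j <;> simp [e, Pi.mulSingle_apply]
  · by_cases c : m = π σ j <;> simp [c, h σ e]

end

variable {k K : Type} [Field k] [Field K] [Algebra k K] {D : Chev} {T : Tw k (D.grp K)}
  {F : IntermediateField k K} {d : Fin D.R.r → Kˣ}

/-- The restriction of automorphisms. -/
noncomputable abbrev rs (F : IntermediateField k K) [Normal k F] : (K ≃ₐ[k] K) →* F ≃ₐ[k] F :=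
  AlgEquiv.restrictNormalHom F

theorem rs_val [Normal k F] (σ : K ≃ₐ[k] K) (x : F) : (rs F σ x : K) = σ x :=
  AlgEquiv.restrictNormal_commutes σ F x

theorem ex_field [IsGalois k K] {G : Type} [Group G] {ε : (K ≃ₐ[k] K) →* ℤˣ}
    {π : (K ≃ₐ[k] K) →* G} (h : Near k fun τ => ε τ = 1 ∧ π τ = 1) :
    ∃ (F : IntermediateField k K) (_ : FiniteDimensional k F) (_ : IsGalois k F) (ε' : _) (π' : _),
      ε = MonoidHom.comp ε' (rs F) ∧ π = MonoidHom.comp π' (rs F) := by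
  obtain ⟨F, _, hF⟩ := h
  let L := IntermediateField.normalClosure k F K
  have : IsGalois k L := {}
  have s : Function.Surjective (rs L) := AlgEquiv.restrictNormalHom_surjective K
  have key : ∀ τ ∈ (rs L).ker, ε τ = 1 ∧ π τ = 1 := fun τ hτ => hF τ fun x hx => by
    rw [← rs_val τ (⟨x, F.le_normalClosure hx⟩ : L), MonoidHom.mem_ker.1 hτ]
    rfl
  exact ⟨L, inferInstance, this, (rs L).liftOfSurjective s ⟨ε, fun τ h => (key τ h).1⟩,
    (rs L).liftOfSurjective s ⟨π, fun τ h => (key τ h).2⟩,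
    ((rs L).liftOfRightInverse_comp _ _ ⟨ε, _⟩).symm,
    ((rs L).liftOfRightInverse_comp _ _ ⟨π, _⟩).symm⟩

theorem rs_one [Normal k F] {τ : K ≃ₐ[k] K} (h : ∀ x ∈ F, τ x = x) : rs F τ = 1 :=
  AlgEquiv.ext fun x => Subtype.ext ((rs_val τ x).trans (h x x.2))

section

variable [FiniteDimensional k F] [Normal k F] {ε : (F ≃ₐ[k] F) →* ℤˣ}
  {π : (F ≃ₐ[k] F) →* Equiv.Perm (Fin D.R.r)} (hD : SC D)
  (h : Opw T (ε.comp (rs F)) (π.comp (rs F)) d)
include hD h

theorem ex_nr (j : Fin D.R.r) (w : Fˣ) : ∃ γ : T.fix, Nr ε π j w γ := by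
  refine ⟨⟨_, fun σ => ?_⟩, rfl⟩
  rw [fm_hT]
  refine (P011UGC5.fix_hT hD h).2 fun i => ?_
  rw [MonoidHom.comp_apply, MonoidHom.comp_apply, nrm_eqv, map_zpow]
  exact congrArg (· ^ _) (Units.ext (rs_val σ _))

theorem ex_rat [IsGalois k K] (γ : T.fix) : ∃ g, fm D (algebraMap F K) g = γ.1 := by
  refine hD.desc _ fun a b => ?_
  refine ⟨⟨_, P011LD.fixed_sub F fun τ hτ => ?_⟩, rfl⟩
  have e := rs_one ((IntermediateField.mem_fixingSubgroup_iff _ _).1 hτ)
  have : (T.a τ).toMonoidHom = fm D (τ : K →+* K) :=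
    MonoidHom.eq_of_eqOn_dense GG_ok.gen (by
      rintro _ ⟨i, t, rfl | rfl⟩
      · simpa [e, fm_x] using (h.pos τ i t (by simp [e])).1
      · simpa [e, fm_x] using (h.pos τ i t (by simp [e])).2)
  exact congrArg (fun g : D.grp K => g.1.1 a b) ((DFunLike.congr_fun this γ.1).symm.trans (γ.2 τ))

end

theorem diag_of {M : S K} {t : Kˣ} (ht : t ^ 2 ≠ 1) (h : Commute (dg t) M) :
    M.1 0 1 = 0 ∧ M.1 1 0 = 0 := by
  have e : (t : K) - (t : K)⁻¹ ≠ 0 := fun c => ht (Units.ext (by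
    have := t.ne_zero
    field_simp at c
    simpa [sub_eq_zero] using c))
  have h1 := congrArg (fun N : S K => N.1 0 1) h.eq
  have h2 := congrArg (fun N : S K => N.1 1 0) h.eq
  simp only [S.mul] at h1 h2
  simp [dg_eq, P011UGM1.mk] at h1 h2
  exact ⟨(mul_eq_zero.1 (by linear_combination h1 : ((t : K) - (t : K)⁻¹) * M.1 0 1 = 0)).resolve_left
    e, (mul_eq_zero.1 (by linear_combination -h2 :
      ((t : K) - (t : K)⁻¹) * M.1 1 0 = 0)).resolve_left e⟩

/-- The centraliser of a regular element is commutative. -/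
theorem comm_reg (hD : SC D) {J : Set (Fin D.R.r)} (o : Og D.R J) {s : Fin D.R.r → Kˣ}
    (h0 : ∀ m ∉ J, s m = 1) (h1 : ∀ m ∈ J, s m ^ 2 ≠ 1) {a b : D.grp K} (ha : a ∈ LJ (GG D K) J)
    (hb : b ∈ LJ (GG D K) J) (ca : Commute (hT D K s) a) (cb : Commute (hT D K s) b) :
    Commute a b := by
  have key : ∀ M, Commute (hT D K s) (FI K o M) → ∀ j ∈ J, (M j).1 0 1 = 0 ∧ (M j).1 1 0 = 0 :=
    fun M c j hj => diag_of (h1 j hj) (by
      rw [← PH_dg _ (R_ok D) o h0, ← commutatorElement_eq_one_iff_commute, ← map_commutatorElement,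
        ← map_one (hT D K)] at c
      rw [← commutatorElement_eq_one_iff_commute]
      exact ((PH_uniq _ _ o hD.hT_inj c).1 j hj).trans (map_one _))
  obtain ⟨M, rfl⟩ := PH_surj GG_ok (R_ok D) o ha
  obtain ⟨N, rfl⟩ := PH_surj GG_ok (R_ok D) o hb
  rw [Commute, SemiconjBy, ← map_mul, ← map_mul]
  refine PH_congr _ _ o fun j hj => ?_
  obtain ⟨a1, a2⟩ := key M ca j hj
  obtain ⟨b1, b2⟩ := key N cb j hj
  refine S.ext' ?_ ?_ ?_ ?_ <;> simp [S.mul, a1, a2, b1, b2, mul_comm]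

end Vale.Agent.P011UT4
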